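import Crest.Agent.X212.Nd18.Term

/-!
# Row 212, GW-IZ (helper83): the neck terms do not see `z`
-/

set_option autoImplicit false
set_option linter.unusedSectionVars false
noncomputable section
open scoped Manifold ContDiff

namespace Crest.Agent.X212.Iz83
open An Nd18 Dgr80

variable {E3 : Type} [NormedAddCommGroup E3] [NormedSpace ℝ E3] [FiniteDimensional ℝ E3]
  [MeasurableSpace E3] [BorelSpace E3]
  {H3 : Type} [TopologicalSpace H3] {I3 : ModelWithCorners ℝ E3 H3} [I3.Boundaryless]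
  {Y : Type} [TopologicalSpace Y] [ChartedSpace H3 Y] [IsManifold I3 ∞ Y] [T2Space Y]
  [MeasurableSpace Y] [BorelSpace Y] [SecondCountableTopology Y] [CompactSpace Y]
  {κ : Type} [Fintype κ] {lam : Type} [Fintype lam]
  {E : Type} [NormedAddCommGroup E] [NormedSpace ℝ E] [FiniteDimensional ℝ E]
  [MeasurableSpace E] [BorelSpace E]
  {HM : Type} [TopologicalSpace HM] {I : ModelWithCorners ℝ E HM}
  {M : Type} [TopologicalSpace M] [ChartedSpace HM M] [IsManifold I ∞ M] [MeasurableSpace M]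
  [T2Space M] [BorelSpace M]
  {D : YD I3 Y κ lam} {B : Base M (Option κ) lam} {G : Geo I M (Option κ) lam}
  (N : ND Y lam) (K : Nk D B G) {r n : ℕ} (c : Cfg M (Option κ) lam r)

section
variable (F : Fr I M (Option κ))

theorem lt_noz : c.lt F = (noz c).lt F := funext fun t => by cases t <;> rfl
theorem la_noz : c.la F = (noz c).la F := funext fun t => by cases t <;> rfl
theorem ltS_noz : ltS F c = ltS F (noz c) := funext fun t => by cases t <;> rfl
theorem laS_noz : laS c = laS (noz c) := funext fun t => by cases t <;> rfl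
theorem pk_noz : pk c = pk (noz c) := funext fun t => by cases t <;> rfl
theorem nw_noz : nw F c = nw F (noz c) := funext fun u => congrArg (Wrd81.wd · _ u) (lt_noz c F)
theorem sw_noz : c.sw F = (noz c).sw F := funext fun u => congrArg (Wrd81.wd · _ u) (lt_noz c F)
theorem swA_noz : swA F c = swA F (noz c) :=
  funext₂ fun u l => congrArg (fun f => gc F c.W opL (nP c) (u.map f) l) (ltS_noz c F)
theorem swP_noz : swP F c = swP F (noz c) :=
  funext₂ fun u l => congrArg (fun f => dn c (bk F c.W (u.map f) l)) (ltS_noz c F)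
theorem bf_noz : Cyc79.bf F c = Cyc79.bf F (noz c) := funext₂ fun f f' => congrArg
  (fun t => Cyc79.fld F.toPre fun u => Wrd81.wd t (fun y => c.m.pg y (u y)) (Cyc79.xw f f'))
  (la_noz c F)

/-- seeds which do not see `z` -/
def SZ (S : Sed M (Option κ) lam r) (S' : Sed M (Option κ) lam 0) : Prop :=
  S.s c = S'.s (noz c) ∧ S.sA c = S'.sA (noz c) ∧ S.sP c = S'.sP (noz c)

theorem sz_sed (d : Cyc79.Cy M) : SZ c (d.sed F) (d.sed F) := by
  refine ⟨?_, ?_, rfl⟩
  · simp only [Cyc79.Cy.sed, Cyc79.Cy.al, Cyc79.Cy.be, bf_noz c]; rfl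
  · simp only [Cyc79.Cy.sed, Cyc79.gh, bf_noz c]; rfl

theorem SZ.wd {S S'} (h : SZ c S S') (w : List (La M)) : SZ c (S.wd F w) (S'.wd F w) := by
  refine ⟨?_, ?_, ?_⟩ <;> simp only [Sed.wd, h.1, h.2.1, h.2.2, la_noz c, laS_noz c] <;> rfl

end

theorem den_noz (j : N.J) : ((N.dg K).d j).h c = ((N.dg K).d j).h (noz c) ∧
    ((N.dg K).d j).gA c = ((N.dg K).d j).gA (noz c) ∧
    ((N.dg K).d j).gP c = ((N.dg K).d j).gP (noz c) := by
  have a : ∀ T u v, (dcut K.χ (Den.sw G.F T u v)).h c = (dcut K.χ (Den.sw G.F T u v)).h (noz c) ∧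
      (dcut K.χ (Den.sw G.F T u v)).gA c = (dcut K.χ (Den.sw G.F T u v)).gA (noz c) ∧
      (dcut K.χ (Den.sw G.F T u v)).gP c = (dcut K.χ (Den.sw G.F T u v)).gP (noz c) :=
    fun T u v => by
      refine ⟨?_, ?_, ?_⟩ <;>
        simp only [dcut, Den.sw, pk_noz c, nw_noz c, swA_noz c, swP_noz c] <;> rfl
  rcases j with j | j | j
  · simp only [ND.dg, Sum.elim_inl]
    cases N.d0 j with
    | sw u v => exact a _ _ _
    | cy d w d' w' =>
      obtain ⟨a1, a2, a3⟩ := (sz_sed c G.F (K.cyc d)).wd c G.F (w.map K.la)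
      obtain ⟨b1, b2, b3⟩ := (sz_sed c G.F (K.cyc d')).wd c G.F (w'.map K.la)
      refine ⟨?_, ?_, ?_⟩ <;> simp only [Nk.den, dcut, Den.sed, a1, a2, a3, b1, b2, b3] <;> rfl
  all_goals exact a _ _ _

theorem q1_noz : (N.q1 K : Pt _ _ _ r n).D c = (N.q1 K : Pt _ _ _ 0 0).D (noz c) ∧
    (N.q1 K : Pt _ _ _ r n).C c = (N.q1 K : Pt _ _ _ 0 0).C (noz c) := by
  have h := den_noz N K c
  have a : (N.dg K).Iv G.F c = (N.dg K).Iv G.F (noz c) :=
    funext₂ fun t j => congrArg (wn G.F.μ K.τ N.δ · t) (by rcases j with j | j | j <;> exact (h _).1)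
  have b : (N.dg K).β G.F c = (N.dg K).β G.F (noz c) := funext fun j => congrArg
    (fun f : ℝ → N.J → ℝ => cv N.δ fun t => K.cut 3 t * fderiv ℝ (fun x => N.φ (N.cx x)) (f t)
      (Pi.single j 1)) a
  constructor
  · simp only [ND.q1, DG.q1, DG.gP, fun j => (h j).2.2, b]; rfl
  · simp only [ND.q1, DG.q1, DG.gA, fun j => (h j).2.1, b]; rfl

theorem q2_noz (T : YT Y) : (N.q2 K T : Pt _ _ _ r n).D c = (N.q2 K T : Pt _ _ _ 0 0).D (noz c) ∧
    (N.q2 K T : Pt _ _ _ r n).C c = (N.q2 K T : Pt _ _ _ 0 0).C (noz c) := by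
  have a : ∀ u : List (YL Y ⊕ YTC), (u.map (N.tl K)).map (tl G.F K.τ N.δ c) =
      (u.map (N.tl K)).map (tl G.F K.τ N.δ (noz c)) := fun u => by
    simp only [List.map_map]
    exact List.map_congr_left fun t _ => by cases t <;> rfl
  have b : ∀ u : List (La Y ⊕ YTC), (u.map (N.ta K)).map (ta G.F K.τ N.δ c) =
      (u.map (N.ta K)).map (ta G.F K.τ N.δ (noz c)) := fun u => by
    simp only [List.map_map]
    exact List.map_congr_left fun t _ => by cases t <;> rfl
  have o : N.oc K T c = N.oc K T (noz c) := rfl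
  have e : c.tD B G.F (N.tm K c n T) = (noz c).tD B G.F (N.tm K (noz c) 0 T) ∧
      c.tC B G.F (N.tm K c n T) = (noz c).tC B G.F (N.tm K (noz c) 0 T) := by
    cases T with
    | lin C u => exact ⟨congrArg₂ (fun (f : SW M → M → c.m.V) u x => c.m.pm B x (f u x))
        (sw_noz c G.F) (a u), rfl⟩
    | ad C h u v l =>
      refine ⟨rfl, congrArg (fun (f : M → c.m.A) x => c.m.p2 B x (WithLp.toLp 2 fun s =>
        (G.F.D s.1 K.τ x * G.F.D s.2 (K.ext h) x) • f x)) ?_⟩
      simp only [Cfg.aw, Cfg.sd, a, b, sw_noz c, la_noz c]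
      rfl
    | cv C h f g g' l =>
      refine ⟨rfl, congrArg (fun (f : M → c.m.A) x => c.m.p2 B x (WithLp.toLp 2 fun s =>
        (G.F.D s.1 K.τ x * G.F.D s.2 (K.ext h) x) • f x)) ?_⟩
      exact congrArg₂ (Wrd81.wd · _ ·) (la_noz c G.F) (b l)
  exact ⟨congrArg₂ (fun (o : M → ℝ) (f : M → c.m.V) x => o x • nrm (f x)) o e.1,
    congrArg₂ (fun (o : M → ℝ) (f : M → Fm _ c.m.A) x => o x • nrm (f x)) o e.2⟩

theorem pt_noz (q : YW I3 Y →₀ ℝ) :
    (N.pt K q : Pt _ _ _ r n).D c = (N.pt K q : Pt _ _ _ 0 0).D (noz c) ∧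
      (N.pt K q : Pt _ _ _ r n).C c = (N.pt K q : Pt _ _ _ 0 0).C (noz c) :=
  ⟨congrArg₂ (fun (f : M → c.m.V) (g : YW I3 Y → M → c.m.V) x => f x + q.sum fun w a => a • g w x)
    (q1_noz N K c).1 (funext fun T => (q2_noz N K c T.1).1),
   congrArg₂ (fun (f : M → Fm _ c.m.A) (g : YW I3 Y → M → Fm _ c.m.A) x =>
    f x + q.sum fun w a => a • g w x) (q1_noz N K c).2 (funext fun T => (q2_noz N K c T.1).2)⟩

end Crest.Agent.X212.Iz83
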