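import Crest.Agent.X212.Iz83.Pk
import Crest.Agent.X212.Iz83.Noz
import Crest.Agent.X212.Dec35.Un
import Crest.Agent.X212.Cyf70.Lz
import Crest.Agent.X212.St29.Lap
import Crest.Agent.X212.Hd34.Sy
import Crest.Agent.X212.Lg24.Main
import Crest.Agent.X212.Kp63.Iv
import Crest.Agent.X212.Kp63.Nat
import Crest.Agent.X212.Nk89.Gw

/-!
# Row 212, GW-IZ (helper83): the leaf `Nk89.IzStmt`
-/

set_option autoImplicit false
set_option linter.unusedSectionVars false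
noncomputable section
open scoped Manifold ContDiff Topology InnerProductSpace ENNReal NNReal
open MeasureTheory Set Function Filter Real

namespace Crest.Agent.X212.Iz83
open An An.Pre Map77 Sob92 Nd18 Cyf70 Dec35 Nk89
open Gl67 (Cm PP WW ka g0 ka_zero g0_eq)
open Gj67 (rho)

variable {E3 : Type} [NormedAddCommGroup E3] [NormedSpace ℝ E3] [FiniteDimensional ℝ E3]
  [MeasurableSpace E3] [BorelSpace E3]
  {H3 : Type} [TopologicalSpace H3] {I3 : ModelWithCorners ℝ E3 H3} [I3.Boundaryless]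
  {Y : Type} [TopologicalSpace Y] [ChartedSpace H3 Y] [IsManifold I3 ∞ Y] [T2Space Y]
  [MeasurableSpace Y] [BorelSpace Y] [SecondCountableTopology Y] [CompactSpace Y]
  {κ : Type} [Fintype κ] {lam : Type} [Fintype lam] {D : YD I3 Y κ lam} {β : YC Y κ lam}
  {N : ND Y lam}

theorem eq_noz {r n : ℕ} (c : Cfg (Y × ℝ) (Option κ) lam r) (q : YW I3 Y →₀ ℝ) {W : c.m.Cn}
    (e : c.W = W) (z : EuclideanSpace ℂ (Fin 0)) (x : Y × ℝ) :
    c.eD D.G (N.pt D.nk q : Pt _ _ _ r n) x =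
      (⟨c.m, W, c.Φ, z⟩ : Cfg _ _ _ 0).eD D.G (N.pt D.nk q : Pt _ _ _ 0 0) x ∧
    c.eC D.B D.G (N.pt D.nk q : Pt _ _ _ r n) x =
      (⟨c.m, W, c.Φ, z⟩ : Cfg _ _ _ 0).eC D.B D.G (N.pt D.nk q : Pt _ _ _ 0 0) x := by
  obtain rfl := Subsingleton.elim 0 z
  subst e
  exact ⟨congrArg (_ - · x) (pt_noz N D.nk c q).1, congrArg (_ - · x) (pt_noz N D.nk c q).2⟩

section
variable {T U R h : Type} [NormedAddCommGroup T] [NormedSpace ℝ T] [NormedAddCommGroup U]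
  [NormedSpace ℝ U] [NormedAddCommGroup R] [NormedSpace ℝ R] [Fintype h] {r n m : ℕ} {c₀ L : ℝ}
  {bp : Y × ℝ → ℝ} {mo : Y × ℝ → CL (Cf (Option κ) (Fin β.m.N)) ℝ} {w : Cz β}

theorem bd_eq : (zS D T U R β c₀ L bp mo).bd = mbd D.B (cy β).m := by
  simp only [Gl67.Sid.bd, funext (Gl67.Sid.P1.eq_1 _), funext (Gl67.Sid.P2.eq_1 _), Gl67.Sid.Pg,
    Gl67.Sid.Pp, Gl67.Sid.Pm, cst, indicator_univ]
  rfl

theorem W0_eq (A : D.Adm β) (t : T) : (cst T D.B D.G univ univ).W0 (zS D T U R β c₀ L bp mo).md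
    (zS D T U R β c₀ L bp mo).A0 t = (cy β).W := funext fun a => funext fun x => by
  have : ∑ b, D.B.P a b x • β.W b x.1 = β.W a x.1 := A.adm.conn.cc.proj a x
  show _ = β.W a x.1
  simpa [Mod61.Fam.W0, cst, zS] using this

theorem idx_fa (t : Tg D.B (cy β) w) (x : Y × ℝ) :
    idx (fun a b => D.B.P a b x) (.id ℝ _) (fa (w x)) = fa (w x) :=
  fm_ext fun a => (idx_apply _ _ _ a).trans ((Spn45.p1_iff.1 (t.p1 x)).2 a)

theorem row_eq (A : D.Adm β) (t : Tg D.B (cy β) w) (s : T) (x : Y × ℝ) :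
    (zS D T U R β c₀ L bp mo).row s w x = rw β D (deriv rho) c₀ w x := by
  rw [Gl67.Sid.row, bd_eq, W0_eq A, rw, Ie.sig_one (G := ⟨D.Z, ca D.a⟩), dO]
  refine congrArg₂ (· + ·) (congrArg₂ (fun (Φ : Y × ℝ → (cy β).m.V) (v : Cz β) =>
    (((mbd D.B (cy β).m).d0 D.Z (base (cy β).W Φ)).adj D.Z).app D.Z v x)
    (funext fun x => (one_smul _ _).symm) (funext fun x => ext2
      ((f2_sm2 _ _ _).trans (idx_fa t x)) (s2_sm2 _ _ _))) ?_
  rw [Fintype.sum_option]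
  simp only [zS, drZ, Option.elim, mul_zero, zero_smul, Finset.sum_const_zero, add_zero,
    Gl67.Sid.Pg, cst, indicator_univ, mul_smul]
  exact congrArg (c₀ • deriv rho x.2 • ·) (Wz78.pg_of_mem (t.mem x none))

theorem E_eq (A : D.Adm β) (t : Tg D.B (cy β) w) (c : Cm β.m.N r h R) (q : YW I3 Y →₀ ℝ)
    (p : PP T U r h β.m.N) : (zS D T U R β c₀ L bp mo).eF c (zE N D T r n m q) w p = fun x =>
      (rw β D (deriv rho) c₀ w x, f2 _ _ (sz D β (N.pt D.nk q) w x),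
        s2 _ _ (sz D β (N.pt D.nk q) w x), bp x • ∫ x, mo x (w x) ∂D.Z.μ) := funext fun x => by
  have := eq_noz (D := D) (N := N) (n := n) ((zS D T U R β c₀ L bp mo).cfg c w p) q
    (W := (cf (cy β) w).W) (congrArg₂ (cy β).m.addC (W0_eq A _) (funext fun x =>
      (congrArg _ (add_zero _)).trans (idx_fa t x))) β.z x
  exact Prod.ext (row_eq A t _ x) (Prod.ext (this.1.trans (add_zero _).symm)
    (Prod.ext (this.2.trans (zero_add _).symm) rfl))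

end

theorem iz0 (hP : P1Stmt I3 Y κ lam) {k : ℕ} (hk : 8 ≤ k) : Iz N D k := by
  intro hD hN h3 _ β₀ hc hn hF
  have A0 : D.Adm β₀ := ⟨hc.sol.toAdm, hc.tmp⟩
  have nz : ¬D.Zr β₀ := fun z => hF ⟨0, ⟨contMDiffOn_const, fun _ _ => zero_mem _,
    fun a x _ => by simp [Wz78.nab, dv_zero]⟩, fun x _ => by
      rw [show (cy β₀).Φ x = 0 from z x.1, map_zero, map_zero]⟩
  have : Nonempty Y := by_contra fun e => nz fun y => absurd ⟨y⟩ e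
  have irr := irr_of hD A0 fun z => absurd z nz
  obtain ⟨n, ν, -, hL, -⟩ := (kp_of (twStmt (Cys97.sm _ _ _ _)) Lg24.lgStmt
    (Hd34.Sy.syStmt (c0 (Cys97.sm _ _ _ _))) Kp63.ntStmt Kp63.ivStmt hP N D β₀
    ⟨hD, hN, A0⟩).lz_q h3.le St29.Lap.lap hc irr hn
  obtain ⟨d1, e1, q1⟩ := hL.qd
  obtain ⟨d2, e2, q2⟩ := qd_q2 ⟨hD, hN, A0⟩
  obtain ⟨ε, -, Λ, hΛ, Dd, hW, δ₀, d0, d1', H⟩ := est hD A0 irr hL (lt_min e1 e2) hk deriv_rho
  refine ⟨δ₀, d0, fun δ hδ c₀ h0 β A ⟨u, ζ, e⟩ => ?_⟩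
  have h := (Ie.mk (G := ⟨D.Z, ca D.a⟩) (bs_cyl hD A0) (bs_cyl hD A) e).symm
  generalize (fun x => trn (u x)) = u, ζ⁻¹ = ζ at h
  have sA := h.cbA.choose_spec.1
  have s1 : Sm (IC I3) fun z : Y × ℝ => bm z.2 • (innerSL ℝ (n z.1) ∘L aA (cy β₀) (u z) ζ) :=
    (sm_snd bm_cd).smul ((sm_clm (innerSL ℝ) (sm_fst hL.rw.sm)).clm_comp sA)
  refine ⟨fun z => bm z.2, _, ⟨sm_snd bm_cd, hcs_bm fun _ h => h⟩,
    ⟨s1, hcs_bm fun _ h => (congrArg (· • _) h).trans (zero_smul _ _)⟩, fun z hz =>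
      ⟨bm_zero.2 hz, (congrArg (· • _) (bm_zero.2 hz)).trans (zero_smul _ _)⟩, ?_⟩
  intro T U R hh _ _ _ _ _ _ _ r nn m c S Q
  have o : Eqv71.OKZ D := ⟨hD, tame_Z hD⟩
  obtain ⟨C, c1, r₀, r0, H⟩ := H δ hδ.1 hδ.2 (Bl D N S Q) (.cmb hD (cmb_bl S Q)
    (q1.mono (min_le_left _ _)) (fun u hu => (hL.fl u hu).1) fun T => (q2 T).mono (min_le_right _ _))
    (by rintro _ ⟨q, -, rfl⟩; exact sz_sol ((Bki64.crit_iff A0).1 hc))
  obtain ⟨C', c2, r₁, r1, H'⟩ := estT h k deriv_rho c1 r0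
  obtain ⟨c3, p3, h3⟩ := peak_le hD (1 + Λ)
  obtain ⟨c4, p4, h4⟩ := N_nw (I := IC I3) (M := Y × ℝ) (ι := Option κ) (V := Cv (cy β)) Dd (k + 1)
    (3 + 2 * Λ)
  obtain ⟨a1, b1, g1⟩ := nw_N (I := IC I3) (M := Y × ℝ) (ι := Option κ)
    (.fst ℝ _ _ : WW (Option κ) (cy β).m.N ℝ →L[ℝ] (cy β).m.A) Dd k (3 + 2 * Λ)
  obtain ⟨a2, b2, g2⟩ := nw_N (I := IC I3) (M := Y × ℝ) (ι := Option κ)
    ((i1 _ _ ∘L .fst ℝ _ _ + i2 _ _ ∘L .fst ℝ _ _ ∘L .snd ℝ _ _) ∘L .snd ℝ _ _ :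
      WW (Option κ) (cy β).m.N ℝ →L[ℝ] Ev (cy β)) Dd k (3 + 2 * Λ)
  obtain ⟨a3, b3, g3⟩ := nw_N (I := IC I3) (M := Y × ℝ) (ι := Option κ)
    (.snd ℝ _ _ ∘L .snd ℝ _ _ ∘L .snd ℝ _ _ : WW (Option κ) (cy β).m.N ℝ →L[ℝ] ℝ) Dd k (3 + 2 * Λ)
  refine ⟨NNReal.mk (c4 * (3 * C' ^ 2 * (a1 + a2 + c3 ^ 2 * a3))) (by positivity) + 1,
    NNReal.mk (r₁ ^ 2 / (c4 + 1)) (by positivity), 1,
    NNReal.coe_pos.1 (show 0 < r₁ ^ 2 / (c4 + 1) by positivity),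
    fun q i1 i2 L (w : Cz β) hw hs p hr => ?_⟩
  have t : Tg D.B (cy β) w := fun x =>
    (congrArg (fun b : Bd _ _ (Fin β.m.N) => b.pC x (w x)) bd_eq).symm.trans (hw.2.2 x)
  have fw : Fl D.Z.toPre w := .of_hcs hw.1 hw.2.1
  have δ1 := hδ.2.trans d1'
  obtain ⟨ψ, ς, k', W⟩ := hW δ hδ.1 δ1 _ (le_max_right L Λ)
  have l1 : ∀ x : Y × ℝ, g0 δ (ka (L - rho x.2)) ≤ ψ x.2 := fun x => (g0_eq _ _).trans_le
    ((mul_le_mul_of_nonneg_left (tent_bd (by linarith) L x.2).1 hδ.1.le).trans (W.lo _))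
  have l2 : ∀ x : Y × ℝ, ψ x.2 ≤ g0 δ (ka (L - rho x.2)) + (3 + 2 * Λ) := fun x => by
    rw [g0_eq]
    nlinarith [W.hi x.2, mul_le_mul_of_nonneg_left (tent_bd (Λ := Λ) (by linarith) L x.2).2 hδ.1.le]
  obtain ⟨n1, n2⟩ := h4 D.Z _ _ _ W.wd l1 l2 w fw
  obtain ⟨s, hs1, hs2⟩ := peak (D := D) hL.rw.sm.continuous (sA.clm_apply hw.1).continuous
  obtain ⟨fz, hz⟩ := H' _ c₀ _ _ _ _ (by positivity) (Eqv71.natZ (o.pt hN q) o) W.wd w hw.1 hw.2.1 t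
    _ rfl (fun hv => H _ ⟨q, ⟨i1, i2⟩, rfl⟩ c₀ h0 _ ψ ς k' W _ ⟨fw.app h.cbA, h.tg t⟩ (fun x hx => by
      refine (congrArg _ (image_eq_zero_of_notMem_tsupport fun k => ?_)).trans (map_zero _)
      have := hs k
      rw [mem_preimage, ka_zero (by linarith [(rho_bd x.2).1, le_max_left L Λ])] at this
      exact absurd this (by simp)) hv s hs1) (abs_le_of_sq_le_sq' (by
        have := n1.trans (mul_le_mul_right hr _)
        rw [← ENNReal.ofReal_coe_nnreal, ← ENNReal.ofReal_mul p4,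
          ENNReal.ofReal_le_ofReal_iff (by positivity), NNReal.coe_mk, ← mul_div_assoc] at this
        exact this.trans ((div_le_iff₀' (by positivity)).2 (by nlinarith [sq_nonneg r₁]))) r1.le).2
  rw [← hs2] at hz
  refine enn fun X hX => n2.trans (ENNReal.ofReal_le_ofReal ?_)
  have f1 := fl_rw h.b deriv_rho c₀ fw
  have eE := E_eq (T := T) (U := U) (N := N) (n := nn) (m := m) (c₀ := c₀) (L := L) (bp := fun z => bm z.2)
    (mo := fun z => bm z.2 • (innerSL ℝ (n z.1) ∘L aA (cy β₀) (u z) ζ)) A t c q p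
  have f3 := fl_bm (D := D) (∫ x, bm x.2 * ⟪n x.1, aA (cy β₀) (u x) ζ (w x)⟫_ℝ ∂D.Z.μ)
  replace hX := (congrArg (Gl67.N D.Z.toPre (fun x => g0 δ (ka (L - rho x.2))) univ k)
    eE).symm.trans_le hX
  have sE := f1.sm.prodMk_space ((sm_clm (f2 _ _) fz.sm).prodMk_space
    ((sm_clm (s2 _ _) fz.sm).prodMk_space f3.sm))
  rw [NNReal.coe_mk, mul_assoc]
  exact mul_le_mul_of_nonneg_left (ar3 (nw_nonneg _ _) c2 hz (h3 ψ _ _ W.wd s (fun t ht => by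
    have := W.hi s
    have := W.lo t
    have : tent (max L Λ) 0 0 s ≤ tent (max L Λ) 0 0 t + 1 := by
      simp only [tent_abs]
      exact max_le (by positivity) (by linarith [le_max_right 0 (max L Λ - |t|), abs_nonneg s])
    nlinarith [hδ.1]) _ k)
    (g1 D.Z _ _ _ W.wd l1 l2 _ sE _ (fun _ => rfl) f1 X hX)
    (g2 D.Z _ _ _ W.wd l1 l2 _ sE _ (fun _ => (i1_add_i2 _).symm) fz X hX)
    (g3 D.Z _ _ _ W.wd l1 l2 _ sE _ (fun _ => rfl) f3 X hX)) p4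

/-- **LEAF IZ** -/
theorem iz (hP : ∀ (Y : M.Mf 3) [CompactSpace Y.M], P1Stmt Y.I Y.M κ lam) {k : ℕ} (hk : 8 ≤ k) :
    IzStmt κ lam k := fun Y _ _ _ => iz0 (hP Y) hk

end Crest.Agent.X212.Iz83
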