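import Crest.Agent.X212.Ixz30.Eqv
import Crest.Agent.X212.Dec35.Nat
import Crest.Agent.X212.Hm83.St

/-!
# Row 212, GW-IZ (helper83): transport of variations along an isomorphism of configurations
-/

set_option autoImplicit false
set_option linter.unusedSectionVars false
noncomputable section
open scoped Manifold ContDiff Topology InnerProductSpace
open MeasureTheory Set Function Filter Real

namespace Crest.Agent.X212.Iz83
open An An.Pre Map77 Sob92 Ell97 Dec35 Eqv71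

variable {E : Type} [NormedAddCommGroup E] [NormedSpace ℝ E] [FiniteDimensional ℝ E]
  [MeasurableSpace E] [BorelSpace E]
  {HM : Type} [TopologicalSpace HM] {I : ModelWithCorners ℝ E HM} [I.Boundaryless]
  {M : Type} [TopologicalSpace M] [ChartedSpace HM M] [IsManifold I ∞ M] [MeasurableSpace M]
  [T2Space M] [BorelSpace M] [SecondCountableTopology M]
  {ι : Type} [Fintype ι] {lam : Type} [Fintype lam]
  {B : Base M ι lam} {G : Geo I M ι lam} {c c' : Cfg M ι lam 0} {u : M → CL c.m.V c'.m.V}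
  {ζ : Circle} {w : M → Cv c}

variable (c') in
/-- the action on variations -/
def aA (u : CL c.m.V c'.m.V) (ζ : Circle) : CL (Cv c) (Cv c') :=
  sm2 (Grp76.tp fun a => cj u ∘L Grp76.pj _ a) (csL c'.m.J ζ ∘L u)

theorem fa_aA (u : CL c.m.V c'.m.V) (v : Cv c) (a : ι) : fa (aA c' u ζ v) a = cj u (fa v a) := by
  simp [aA]

theorem fp_aA (u : CL c.m.V c'.m.V) (v : Cv c) : fp (aA c' u ζ v) = cs c'.m.J ζ (u (fp v)) := by
  simp [aA, csL_apply]

variable (G) in
/-- an isomorphism of bounded configurations -/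
structure Ie (B : Base M ι lam) (u : M → CL c.m.V c'.m.V) (ζ : Circle) : Prop where
  b : Bs B G c
  b' : Bs B G c'
  e : CEq G.F c c' univ id (fun x b a => B.P b a x) B.l u ζ

namespace Ie
variable (h : Ie G B u ζ)
include h

theorem symm : Ie G B (fun x => trn (u x)) ζ⁻¹ :=
  ⟨h.b', h.b, ceq_symm_id h.b.hB h.b.hG isOpen_univ (ad0 h.b.adm) (ad0 h.b'.adm) h.e⟩

theorem me (x : M) : ME c.m x c'.m x (fun b a => B.P b a x) (B.l x) (u x) :=
  me_of_meq h.e.m (mem_univ x)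

theorem su : Sm I u := contMDiffOn_univ.1 h.e.m.su

theorem itw (x : M) : Itw I G.F.e c.W c'.W u x := fun a => by
  have h2 : ∑ b, B.P b a x • c'.W b x = c'.W a x := by
    simp only [fun b => (h.b.hB.pr x).symm b a]
    exact h.b'.adm.conn.cc.proj a x
  rw [← h2]
  exact sub_eq_zero.1 (h.e.W x trivial a)

theorem cb : G.F.Cb u :=
  Mod61.cb_of_ode (L := fun a x =>
    (ContinuousLinearMap.compL ℝ c.m.V c.m.V c'.m.V).flip (c.W a x) -
      ContinuousLinearMap.compL ℝ c.m.V c'.m.V c'.m.V (c'.W a x)) (h.su.mdifferentiable (by simp))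
    (fun a x => eq_sub_of_add_eq (h.itw x a))
    (fun a => Cb_sub (Cb_clm _ (h.b.cW a)) (Cb_clm _ (h.b'.cW a))) (C := 1) fun x =>
      (u x).opNorm_le_bound zero_le_one fun a => by
        rw [one_mul]
        exact norm_le_of_proj (h.me x).inner (fun a => by
          rw [h.b.adm.ok.psym, ← mul_apply_eq_comp, h.b.adm.ok.pidem]) a

theorem cbA : G.F.Cb fun x => aA c' (u x) ζ :=
  Cb_pr2 (Cb_comp (Grp76.Cb_tp fun _ => Cb_comp (Mod61.Cb_cj h.cb) (Cb_const _)) (Cb_const _))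
    (Cb_comp (Cb_comp (Cb_const _) h.cb) (Cb_const _))

theorem mem {x : M} {ξ : c.m.A} (m : ξ ∈ c.m.gS x) : cj (u x) ξ ∈ c'.m.gS x :=
  (h.me x).cj_mem (BE.refl h.b.hB x) h.b.adm.ok h.b'.adm.ok m

theorem cmp {x : M} {ξ : c.m.A} (m : ξ ∈ c.m.gS x) : opL (cj (u x) ξ) ∘L u x = u x ∘L opL ξ := by
  rw [opL_cj, ContinuousLinearMap.comp_assoc, ContinuousLinearMap.comp_assoc, (h.me x).uu]
  exact congrArg (u x ∘L ·) (Wz78.g_p' h.b.adm.ok m)

theorem tg (t : Tg B c w) : Tg B c' fun x => aA c' (u x) ζ (w x) := by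
  refine Tg.of (fun x => Spn45.p1_iff.2 ⟨fun a => ?_, fun a => ?_⟩) fun x => ?_
  · rw [fa_aA]; exact h.mem (t.mem x a)
  · simp only [fa_aA, ← map_smul, ← map_sum, (Spn45.p1_iff.1 (t.p1 x)).2 a]
  · rw [fp_aA, map_cs (Wz78.J_pp h.b'.adm.ok x).symm,
      (h.me x).pp (BE.refl h.b.hB x) h.b.hB h.b.hB h.b.adm.ok, t.pp]

theorem ceq (t : Tg B c w) : CEq G.F (cf c w) (cf c' fun x => aA c' (u x) ζ (w x)) univ id
    (fun x b a => B.P b a x) B.l u ζ := by
  refine ⟨h.e.m, fun x _ a => ?_, fun x _ => ?_, Subsingleton.elim _ _⟩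
  · have h1 := h.e.W x trivial a
    have h2 : ∑ b, B.P b a x • opL (fa (aA c' (u x) ζ (w x)) b) = opL (cj (u x) (fa (w x) a)) := by
      simp only [fun b => (h.b.hB.pr x).symm b a, ← map_smul, ← map_sum,
        (Spn45.p1_iff.1 (t.p1 x)).2 a, fa_aA]
    change G.F.D a u x + (∑ b, B.P b a x • (c'.W b x + opL (fa (aA c' (u x) ζ (w x)) b))) ∘L u x -
      u x ∘L (c.W a x + opL (fa (w x) a)) = 0
    simp only [smul_add, Finset.sum_add_distrib, h2, ContinuousLinearMap.add_comp,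
      ContinuousLinearMap.comp_add, h.cmp (t.mem x a)]
    rw [← h1]
    exact (fun p q s t => by abel : ∀ p q s t : CL c.m.V c'.m.V,
      p + (q + s) - (t + s) = p + q - t) _ _ _ _
  · change c'.Φ x + fp (aA c' (u x) ζ (w x)) = cs c'.m.J ζ (u x (c.Φ x + fp (w x)))
    rw [fp_aA, show c'.Φ x = _ from h.e.Φ x trivial, map_add, ← csL_apply, ← csL_apply,
      ← csL_apply, map_add]

theorem inv (t : Tg B c w) (x : M) : aA c (trn (u x)) ζ⁻¹ (aA c' (u x) ζ (w x)) = w x := by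
  refine ext2 (fm_ext fun a => ?_) ?_
  · exact (fa_aA _ _ a).trans ((congrArg _ (fa_aA _ _ a)).trans ((h.me x).trn_cj (t.mem x a)))
  · have h2 : ∀ a, trn (u x) (u x a) = c.m.p x a := fun a => DFunLike.congr_fun (h.me x).uu a
    refine (fp_aA _ _).trans ?_
    rw [fp_aA, (h.me x).cs, h2, map_cs (h.b.adm.ok.Jp _).symm, ← t.pp x, p_pp h.b.adm.ok,
      cs_mul h.b.adm.ok.Jsq]
    simp

theorem dg_nat {ξ : M → c.m.A} (s : Sm I ξ) (m : ∀ x, ξ x ∈ c.m.gS x) (x : M) :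
    dg G.F c' 1 (fun x => cj (u x) (ξ x)) x = aA c' (u x) ζ (dg G.F c 1 ξ x) := by
  refine ext2 (fm_ext fun a => ?_) ?_
  · refine (Hm83.fa_dg ..).trans (Eq.trans ?_ (fa_aA _ _ a).symm)
    rw [Hm83.fa_dg, map_neg]
    exact congrArg Neg.neg (((h.itw x).cj (h.su x) (h.b.adm.conn.sk · x)
      (h.b'.adm.conn.sk · x)).nab (sa_cj (h.su x)).md (s.mdifferentiableAt (by simp)) a)
  · refine (Hm83.fp_dg ..).trans (Eq.trans ?_ (fp_aA _ _).symm)
    rw [Hm83.fp_dg, one_smul, one_smul, show c'.Φ x = _ from h.e.Φ x trivial,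
      map_cs (Wz78.g_J (h.mem (m x))).symm]
    exact congrArg _ (DFunLike.congr_fun (h.cmp (m x)) _)

omit h in
theorem sig_one (w : M → Cv c) : sig B G.F c 1 w = ((dO B G.F c 1).adj G.F).app G.F w := by
  rw [Hm83.sig_eq, show (fun x => Hm83.scl c 1 (w x)) = w from
    funext fun x => ext2 (by simp [Hm83.scl]) (by simp [Hm83.scl])]

/-- the gauge row is natural -/
theorem sig_nat (s : Sm I w) (hc : HasCompactSupport w) :
    sig B G.F c' 1 (fun x => aA c' (u x) ζ (w x)) = fun x => cj (u x) (sig B G.F c 1 w x) := by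
  obtain ⟨_, -, g⟩ := h.b.good_dO 1
  obtain ⟨_, -, g'⟩ := h.b'.good_dO 1
  obtain ⟨_, -, r⟩ := h.b.good_row 1
  obtain ⟨_, -, r'⟩ := h.b'.good_row 1
  have m : ∀ {x} {ξ : c'.m.A}, c'.m.pg x ξ = ξ → cj (trn (u x)) ξ ∈ c.m.gS x := fun hξ =>
    h.symm.mem (hξ ▸ Wz78.pg_mem _ _)
  have s1 := (Mod61.Cb_cj h.symm.cb).choose_spec.1
  have s2 := h.cbA.choose_spec.1
  have s3 := (Mod61.Cb_cj h.cb).choose_spec.1
  rw [sig_one, sig_one]
  refine Ixz30.adj_nat g g' (a := fun x => cj (u x)) (a' := fun x => cj (trn (u x)))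
    (fun x ξ η => Eqv71.inner_cj _ _ _) s1
    (fun x v hv => Wz78.pg_of_mem (m hv)) (tst w s hc) (mul _ s2 (tst w s hc))
    (fun η x => ?_) ?_ ?_
  · have m' : ∀ x, η.1 x ∈ c'.m.gS x := fun x => η.2.2.2 x ▸ Wz78.pg_mem x _
    rw [(dO_app h.b.hB h.b.hG h.b'.adm 1 η.2.1 m').1, (dO_app h.b.hB h.b.hG h.b.adm 1
      (s1.clm_apply η.2.1) fun x => h.symm.mem (m' x)).1,
      h.symm.dg_nat η.2.1 m']
    exact (Ixz30.tr_sm2 h.b.adm.ok.Jsk (h.me x).J ζ _ _).symm
  · have := (Ell97.LT r' (mul _ s2 (tst w s hc))).2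
    rw [LT_val] at this
    exact ⟨this.1, this.2.1, q_app r' _⟩
  · have := (mul _ s3 (Ell97.LT r (tst w s hc))).2
    rw [show (mul _ s3 (Ell97.LT r (tst w s hc))).1 = _ from
      funext fun x => (mul_val _ _ _ x).trans (congrArg _ (congrFun (LT_val r _) x))] at this
    exact ⟨this.1, this.2.1, fun x => Wz78.pg_of_mem (h.mem (q_app r _ x ▸ Wz78.pg_mem x _))⟩

end Ie

end Crest.Agent.X212.Iz83
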