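import Crest.Agent.X212.Iz83.Lin
import Crest.Agent.X212.Iz83.Tr
import Mathlib.MeasureTheory.Integral.MeanValue

/-!
# Row 212, GW-IZ (helper83): the peak row, the transported estimate
-/

set_option autoImplicit false
set_option linter.unusedSectionVars false
noncomputable section
open scoped Manifold ContDiff Topology InnerProductSpace ENNReal NNReal
open MeasureTheory Set Function Filter Real

namespace Crest.Agent.X212.Iz83
open An An.Pre Map77 Sob92 Nd18 Cyf70 Dec35 Eqv71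
open Gl67 (J N N_le J_congr)

section gen
variable {E : Type} [NormedAddCommGroup E] [NormedSpace ℝ E] [FiniteDimensional ℝ E]
  [MeasurableSpace E] [BorelSpace E]
  {HM : Type} [TopologicalSpace HM] {I : ModelWithCorners ℝ E HM} [I.Boundaryless]
  {M : Type} [TopologicalSpace M] [ChartedSpace HM M] [IsManifold I ∞ M]
  [MeasurableSpace M] [T2Space M] [BorelSpace M] [SecondCountableTopology M] {ι : Type} [Fintype ι]
  {V W : Type} [NormedAddCommGroup V] [InnerProductSpace ℝ V] [NormedAddCommGroup W]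
  [NormedSpace ℝ W]

theorem J_L {F : Pre I M ι} {x : M} (L : W →L[ℝ] V) : ∀ (k : ℕ) {u : M → W}, Sm I u →
    J F k (fun y => L (u y)) x ≤ ‖L‖ ^ 2 * J F k u x
  | 0, _, _ => (pow_le_pow_left₀ (norm_nonneg _) (L.le_opNorm _) 2).trans_eq (mul_pow _ _ _)
  | k + 1, u, hu => by
    simp only [J, mul_add, Finset.mul_sum]
    exact add_le_add (J_L (F := F) L 0 hu) (Finset.sum_le_sum fun a _ => (J_congr (.of_forall
      fun _ => dv_clm L (hu.mdifferentiableAt (by simp)))).trans_le (J_L L k (F.sm_D hu a)))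

theorem nw_N (L : W →L[ℝ] V) (D : ℕ → ℝ) (k : ℕ) (A : ℝ) : ∃ c ≥ 0, ∀ (F : Fr I M ι) (ψ g : M → ℝ) d,
    Wd F.toPre ψ d D → (∀ x, g x ≤ ψ x) → (∀ x, ψ x ≤ g x + A) → ∀ e : M → W, Sm I e →
    ∀ u, (∀ x, u x = L (e x)) → Fl F.toPre u → ∀ X : ℝ≥0, N F.toPre g univ k e ≤ X →
    nw F.toPre k ψ u ^ 2 ≤ c * X := by
  obtain ⟨c, c0, h⟩ := N_nw (I := I) (M := M) (ι := ι) (V := V) D k A
  refine ⟨c * ‖L‖ ^ 2, by positivity, fun F ψ g d w h1 h2 e s u hu f X hX => ?_⟩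
  obtain rfl := funext hu
  have := (h F ψ g d w h1 h2 _ f).1.trans (mul_le_mul_right ((N_le (g' := g) .univ (sq_nonneg ‖L‖)
    fun x _ => (mul_le_mul_of_nonneg_left (J_L L k s) (exp_pos _).le).trans_eq
      (mul_left_comm _ _ _)).trans (mul_le_mul_right hX _)) _)
  rwa [← ENNReal.ofReal_coe_nnreal, ← ENNReal.ofReal_mul (sq_nonneg _), ← ENNReal.ofReal_mul c0,
    ENNReal.ofReal_le_ofReal_iff (by positivity), ← mul_assoc] at this

theorem enn {Q X : ℝ≥0∞} {K : ℝ≥0} (h : ∀ x : ℝ≥0, X ≤ x → Q ≤ ENNReal.ofReal (K * x)) :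
    Q ≤ (K + 1 : ℝ≥0) * X := by
  induction X using ENNReal.recTopCoe with
  | top => rw [ENNReal.mul_top (by simp)]; exact le_top
  | coe x =>
    refine (h x le_rfl).trans ?_
    rw [← NNReal.coe_mul, ENNReal.ofReal_coe_nnreal, ← ENNReal.coe_mul, ENNReal.coe_le_coe]
    exact mul_le_mul_left le_self_add _

theorem ar3 {y a b e z C c a' b' e' x : ℝ} (hy : 0 ≤ y) (hC : 0 ≤ C) (h : y ≤ C * (a + b + z))
    (hz : z ≤ c * e) (ha : a ^ 2 ≤ a' * x) (hb : b ^ 2 ≤ b' * x) (he : e ^ 2 ≤ e' * x) :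
    y ^ 2 ≤ 3 * C ^ 2 * (a' + b' + c ^ 2 * e') * x := by
  have h1 := pow_le_pow_left₀ hy (h.trans (mul_le_mul_of_nonneg_left (add_le_add le_rfl hz) hC)) 2
  have h2 : (a + b + c * e) ^ 2 ≤ 3 * (a' + b' + c ^ 2 * e') * x := by
    nlinarith [sq_nonneg (a - b), sq_nonneg (a - c * e), sq_nonneg (b - c * e),
      mul_le_mul_of_nonneg_left he (sq_nonneg c)]
  rw [mul_pow] at h1
  exact h1.trans ((mul_le_mul_of_nonneg_left h2 (sq_nonneg C)).trans_eq (by ring))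

end gen

/-- the bump -/
def bm : ℝ → ℝ := (⟨1 / 2, 1, by norm_num, by norm_num⟩ : ContDiffBump (0 : ℝ)).normed volume

theorem bm_cd : ContDiff ℝ ∞ bm := ContDiffBump.contDiff_normed _

theorem bm_zero {t : ℝ} : bm t = 0 ↔ 1 ≤ |t| := by
  rw [← notMem_support, bm, ContDiffBump.support_normed_eq]; simp

theorem bm_mean {r : ℝ → ℝ} (h : Continuous r) : ∃ s, |s| ≤ 1 ∧ ∫ t, bm t * r t = r s := by
  have z : ∀ t ∉ Icc (-1 : ℝ) 1, bm t = 0 := fun t ht => bm_zero.2 (not_lt.1 fun k =>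
    ht (abs_le.1 k.le))
  obtain ⟨s, hs, e⟩ := exists_eq_const_mul_setIntegral_of_nonneg (μ := volume)
    (isConnected_Icc (by norm_num : (-1 : ℝ) ≤ 1)) measurableSet_Icc h.continuousOn
    bm_cd.continuous.integrableOn_Icc (h.mul bm_cd.continuous).integrableOn_Icc
    fun x _ => ContDiffBump.nonneg_normed _ x
  rw [setIntegral_eq_integral_of_forall_compl_eq_zero fun t ht => by rw [z t ht, mul_zero],
    setIntegral_eq_integral_of_forall_compl_eq_zero z,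
    show ∫ t, bm t = 1 from ContDiffBump.integral_normed _, mul_one] at e
  exact ⟨s, abs_le.2 hs, (integral_congr_ae (.of_forall fun _ => mul_comm _ _)).trans e⟩

variable {E3 : Type} [NormedAddCommGroup E3] [NormedSpace ℝ E3] [FiniteDimensional ℝ E3]
  [MeasurableSpace E3] [BorelSpace E3]
  {H3 : Type} [TopologicalSpace H3] {I3 : ModelWithCorners ℝ E3 H3} [I3.Boundaryless]
  {Y : Type} [TopologicalSpace Y] [ChartedSpace H3 Y] [IsManifold I3 ∞ Y] [T2Space Y]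
  [MeasurableSpace Y] [BorelSpace Y] [SecondCountableTopology Y] [CompactSpace Y]
  {κ : Type} [Fintype κ] {lam : Type} [Fintype lam] {D : YD I3 Y κ lam} {β β₀ : YC Y κ lam}

theorem hcs_bm {V : Type} [Zero V] {f : Y × ℝ → V} (h : ∀ x, bm x.2 = 0 → f x = 0) :
    HasCompactSupport f :=
  .intro (isCompact_univ.prod (isCompact_Icc (a := -1) (b := 1))) fun x hx =>
    h x (bm_zero.2 (not_lt.1 fun k => hx ⟨trivial, abs_le.1 k.le⟩))

theorem fl_bm (a : ℝ) : Fl D.Z.toPre fun x => bm x.2 • a :=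
  .of_hcs ((sm_snd bm_cd).smul contMDiff_const) (hcs_bm fun x h => by rw [h, zero_smul])

theorem peak {V : Type} [NormedAddCommGroup V] [InnerProductSpace ℝ V] {n : Y → V} {v : Y × ℝ → V}
    (hn : Continuous n) (hv : Continuous v) :
    ∃ s, |s| ≤ 1 ∧ ∫ x, bm x.2 * ⟪n x.1, v x⟫_ℝ ∂D.Z.μ = Dec35.row D n v s := by
  have := D.F.fin
  have c : Continuous fun x : Y × ℝ => ⟪n x.1, v x⟫_ℝ := (hn.comp continuous_fst).inner hv
  have c1 := continuous_parametric_integral_of_continuous (μ := D.F.μ)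
    (f := fun t y => ⟪n y, v (y, t)⟫_ℝ) (c.comp continuous_swap) isCompact_univ
  simp only [Measure.restrict_univ] at c1
  obtain ⟨s, hs, e⟩ := bm_mean c1
  refine ⟨s, hs, Eq.trans ?_ e⟩
  refine (integral_prod_symm (fun x : Y × ℝ => bm x.2 * ⟪n x.1, v x⟫_ℝ) (((bm_cd.continuous.comp continuous_snd).mul
    c).integrable_of_hasCompactSupport (hcs_bm fun x h => mul_eq_zero_of_left h _))).trans ?_
  simp only [integral_const_mul]

theorem peak_le [Nonempty Y] (hD : D.OK) (A : ℝ) : ∃ c ≥ 0, ∀ (ψ : ℝ → ℝ) d Dd,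
    Wd D.Z.toPre (fun x => ψ x.2) d Dd → ∀ s, (∀ t, |t| ≤ 1 → ψ s ≤ ψ t + A) → ∀ (a : ℝ) k,
    exp (ψ s) * |a| ≤ c * nw D.Z.toPre k (fun x => ψ x.2) fun x => bm x.2 • a := by
  obtain ⟨C, hF⟩ := tame_Z hD
  have := D.Z.fin
  have := openPos D.Z.toPre
  have f := fl_bm (D := D) 1
  have p : 0 < D.Z.nrm 0 fun x => bm x.2 • (1 : ℝ) := by
    refine lt_of_pow_lt_pow_left₀ 2 (nrm_nonneg _ _) ?_
    rw [nrm_sq, zero_pow two_ne_zero]
    exact (f.sm.continuous.norm.pow 2).integral_pos_of_hasCompactSupport_nonneg_nonzero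
      (x := (Classical.arbitrary Y, 0)) (hcs_bm fun x h => by simp [h]) (fun x => sq_nonneg _)
      (by simp [bm_zero])
  refine ⟨exp A / _, by positivity, fun ψ d Dd w s h a k => ?_⟩
  rw [div_mul_eq_mul_div, le_div_iff₀ p, ← abs_of_pos (exp_pos (ψ s)), ← abs_mul,
    ← nrm_csmul hF _ f]
  refine (nrm0_le (exp_pos A).le ((w.fl (fl_bm a)).fl 0) fun x => ?_).trans
    (mul_le_mul_of_nonneg_left (nw_mono k.zero_le _) (exp_pos A).le)
  rcases le_total |x.2| 1 with k | k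
  · simp only [Pi.smul_apply, norm_smul, norm_mul, Real.norm_eq_abs, abs_exp, abs_one, mul_one]
    rw [← mul_assoc (exp A), ← exp_add, mul_assoc, mul_comm |a|, add_comm A]
    exact mul_le_mul_of_nonneg_right (exp_le_exp.2 (h _ k)) (by positivity)
  · simp [bm_zero.2 k]

theorem fl_rw (b : Bs D.B ⟨D.Z, ca D.a⟩ (cy β)) {f : ℝ → ℝ} (hf : Neck67.Sm f) (c : ℝ) {u : Cz β}
    (hu : Fl D.Z.toPre u) : Fl D.Z.toPre (rw β D f c u) :=
  (Hm83.fl_sig b 1 hu).add (((hu.clm (Grp76.pj _ none ∘L fa : Cv (cy β) →L[ℝ] (cy β).m.A)).smul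
    (cb_snd hf)).csmul c)

/-- the action on the values of the equations -/
def aE {ι κ κ' : Type} [Fintype ι] [Fintype κ] [Fintype κ'] [DecidableEq κ] [DecidableEq κ']
    (J' : En κ') (u : CL (Eu κ) (Eu κ')) (ζ : Circle) : CL (Ef ι κ) (Ef ι κ') :=
  sm2 (csL J' ζ ∘L u) (Grp76.tp fun a => cj u ∘L Grp76.pj _ a)

theorem aE_eq {ι κ κ' : Type} [Fintype ι] [Fintype κ] [Fintype κ'] [DecidableEq κ] [DecidableEq κ']
    {J' : En κ'} {u : CL (Eu κ) (Eu κ')} {ζ : Circle} {a : Eu κ} {a' : Eu κ'}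
    {b : Fm (ι × ι) (HS κ)} {b' : Fm (ι × ι) (HS κ')} (h : a' = cs J' ζ (u a))
    (h' : ∀ s, b' s = cj u (b s)) : i1 _ _ a' + i2 _ _ b' = aE J' u ζ (i1 _ _ a + i2 _ _ b) :=
  ext2 (by simp [aE, h, ← csL_apply]) (by ext1 s; simp [aE, h'])

variable {u : Y × ℝ → CL (cy β).m.V (cy β₀).m.V} {ζ : Circle} (h : Ie ⟨D.Z, ca D.a⟩ D.B u ζ)
  {w : Cz β} {τ : Pt (Y × ℝ) (Option κ) lam 0 0}
include h

theorem cbE : D.Z.Cb fun x => (aE (cy β₀).m.J (u x) ζ : CL (Ev (cy β)) (Ev (cy β₀))) :=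
  Cb_pr2 (Cb_comp (Cb_comp (Cb_const _) h.cb) (Cb_const _)) (Cb_comp (by
    simp only [Grp76.tp_eq]
    exact Cb_sum _ fun a _ => Cb_comp (Cb_const _) (Cb_comp (Mod61.Cb_cj h.cb) (Cb_const _)))
    (Cb_const _))

theorem sz_A (hn : NatZ D τ) (s : Sm (IC I3) w) (t : Tg D.B (cy β) w) :
    sz D β₀ τ (fun x => aA (cy β₀) (u x) ζ (w x)) =
      fun x => aE (cy β₀).m.J (u x) ζ (sz D β τ w x) := funext fun x => by
  have := eq_nat ⟨h.b.hB, h.b.hG⟩ hn (cf_adm h.b.adm s t)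
    (cf_adm h.b'.adm (h.cbA.choose_spec.1.clm_apply s) (h.tg t)) (h.ceq t) x
  exact aE_eq this.1 this.2

theorem rw_A (f : ℝ → ℝ) (c : ℝ) (s : Sm (IC I3) w) (hc : HasCompactSupport w) :
    rw β₀ D f c (fun x => aA (cy β₀) (u x) ζ (w x)) = fun x => cj (u x) (rw β D f c w x) :=
  funext fun x => by
    rw [rw, h.sig_nat s hc, rw]
    simp only [Pi.add_apply, Pi.smul_apply, map_add, map_smul, ContinuousLinearMap.comp_apply,
      Grp76.pj_apply, fa_aA]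

/-- the estimate is transported -/
theorem estT (k : ℕ) {f : ℝ → ℝ} (hf : Neck67.Sm f) {C r : ℝ} (hC : 0 ≤ C) (hr : 0 < r) :
    ∃ C' ≥ 0, ∃ r' > 0, ∀ τ c ψ d Dd, ∀ y ≥ 0, NatZ D τ → Wd D.Z.toPre ψ d Dd → ∀ w : Cz β,
      Sm (IC I3) w → HasCompactSupport w → Tg D.B (cy β) w → ∀ v : Cz β₀,
      v = (fun x => aA (cy β₀) (u x) ζ (w x)) →
      (nw D.Z.toPre (k + 1) ψ v ≤ r → Fl D.Z.toPre (sz D β₀ τ v) ∧ nw D.Z.toPre (k + 1) ψ v ≤
        C * (nw D.Z.toPre k ψ (rw β₀ D f c v) + nw D.Z.toPre k ψ (sz D β₀ τ v) + y)) →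
      nw D.Z.toPre (k + 1) ψ w ≤ r' → Fl D.Z.toPre (sz D β τ w) ∧ nw D.Z.toPre (k + 1) ψ w ≤
        C' * (nw D.Z.toPre k ψ (rw β D f c w) + nw D.Z.toPre k ψ (sz D β τ w) + y) := by
  obtain ⟨A, a1, a2⟩ := h.cbA
  obtain ⟨A', a3, a4⟩ := h.symm.cbA
  obtain ⟨B, b1, b2⟩ := Mod61.Cb_cj h.cb
  obtain ⟨B', b3, b4⟩ := cbE h
  have c0 := cK_nonneg (ι := Option κ) k
  have c1 := cK_nonneg (ι := Option κ) (k + 1)
  refine ⟨cK (Option κ) (k + 1) * |A' (k + 1)| * (C * (cK (Option κ) k * |B k| +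
    cK (Option κ) k * |B' k| + 1)), by positivity, r / (cK (Option κ) (k + 1) * |A (k + 1)| + 1),
    by positivity, fun τ c ψ d Dd y y0 hn p w s hc t v hv H hw => ?_⟩
  have fw : Fl D.Z.toPre w := .of_hcs s hc
  have fv : Fl D.Z.toPre v := hv ▸ fw.app ⟨_, a1, a2⟩
  have n0 := nw_nonneg (F := D.Z) (ψ := ψ) (k + 1) w
  have e : (fun x => aA (cy β) (trn (u x)) ζ⁻¹ (v x)) = w := hv ▸ funext (h.inv t)
  rw [le_div_iff₀' (by positivity)] at hw
  obtain ⟨fz, H⟩ := H (hv ▸ (nw_app p a1 (a2 _) fw).trans (by linarith))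
  have fz' : Fl D.Z.toPre (sz D β τ w) :=
    e ▸ sz_A h.symm hn fv.sm (hv ▸ h.tg t) ▸ fz.app (cbE h.symm)
  have e1 := nw_app p b1 (b2 k) (fl_rw h.b hf c fw)
  have e2 := nw_app p b3 (b4 k) fz'
  rw [← rw_A h f c s hc, ← hv] at e1
  rw [← sz_A h hn s t, ← hv] at e2
  have e3 := nw_app p a3 (a4 (k + 1)) fv
  rw [e] at e3
  refine ⟨fz', e3.trans ?_⟩
  rw [mul_assoc _ (C * _), mul_assoc C]
  refine mul_le_mul_of_nonneg_left (H.trans (mul_le_mul_of_nonneg_left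
    ((add_le_add (add_le_add e1 e2) le_rfl).trans ?_) hC)) (by positivity)
  have n1 := nw_nonneg (F := D.Z) (ψ := ψ) k (rw β D f c w)
  have n2 := nw_nonneg (F := D.Z) (ψ := ψ) k (sz D β τ w)
  have p1 : 0 ≤ cK (Option κ) k * |B k| := by positivity
  have p2 : 0 ≤ cK (Option κ) k * |B' k| := by positivity
  nlinarith [mul_nonneg p1 n2, mul_nonneg p2 n1, mul_nonneg p1 y0, mul_nonneg p2 y0]

end Crest.Agent.X212.Iz83
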