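import Crest.Agent.X212.Gl67.Brg
import Crest.Agent.X212.Gl67.Job
import Crest.Agent.X212.Dec35.Lv

/-!
# Row 212, GW-IZ (helper83): the norms `Gl67.N` and `Dec35.nw`, the tent
-/

set_option autoImplicit false
set_option linter.unusedSectionVars false
noncomputable section
open scoped Manifold ContDiff Topology ENNReal
open MeasureTheory Set Function Filter Real

namespace Crest.Agent.X212.Iz83
open An Sob92 Dec35 Gl67

variable {E : Type} [NormedAddCommGroup E] [NormedSpace ℝ E] [FiniteDimensional ℝ E]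
  [MeasurableSpace E] [BorelSpace E]
  {HM : Type} [TopologicalSpace HM] {I : ModelWithCorners ℝ E HM} [I.Boundaryless]
  {M : Type} [TopologicalSpace M] [ChartedSpace HM M] [IsManifold I ∞ M]
  [MeasurableSpace M] [T2Space M] [BorelSpace M] [SecondCountableTopology M] {ι : Type} [Fintype ι]
  {V : Type} [NormedAddCommGroup V] [InnerProductSpace ℝ V] {F : Fr I M ι}

theorem J_exp (D : ℕ → ℝ) (k : ℕ) : ∃ c ≥ 0, ∀ (F : Pre I M ι) (ψ : M → ℝ), Sm I ψ →
    (∀ a, F.CBs (F.D a ψ) D) → ∀ (u : M → V) x, Sm I u →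
    J F k (fun y => exp (ψ y) • u y) x ≤ c * (exp (2 * ψ x) * J F k u x) := by
  have h0 : ∀ (t : ℝ) (v : V), ‖exp t • v‖ ^ 2 = exp (2 * t) * ‖v‖ ^ 2 := fun t v => by
    rw [norm_smul, mul_pow, Real.norm_eq_abs, sq_abs, sq, ← exp_add, two_mul]
  induction k with
  | zero => exact ⟨1, zero_le_one, fun F ψ _ _ u x _ => ((h0 _ _).trans (one_mul _).symm).le⟩
  | succ k ih =>
    obtain ⟨c, c0, ih⟩ := ih
    obtain ⟨s, hs⟩ : ∃ s, s = (2 * Fintype.card ι + 3) ^ k * D k ^ 2 := ⟨_, rfl⟩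
    have s0 : 0 ≤ s := by rw [hs]; positivity
    refine ⟨1 + 2 * c + Fintype.card ι * (2 * c * s), by positivity, fun F ψ h hD u x hu => ?_⟩
    have e0 := (exp_pos (2 * ψ x)).le
    have h1 : ∀ a, J F k (F.D a fun y => exp (ψ y) • u y) x ≤ 2 * c * exp (2 * ψ x) *
        J F k (F.D a u) x + 2 * c * s * (exp (2 * ψ x) * J F (k + 1) u x) := fun a => by
      have s1 := (hD a).1.smul hu
      rw [Nk89.D_exp_smul F h hu]
      refine (ih F ψ h hD _ x ((F.sm_D hu a).add s1)).trans ((mul_le_mul_of_nonneg_left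
        (mul_le_mul_of_nonneg_left ((J_add isOpen_univ (mem_univ x) k (smO (F.sm_D hu a))
          (smO s1)).trans (add_le_add le_rfl (mul_le_mul_of_nonneg_left
            ((J_smul k (hD a).1 ((hD a).2 k) hu).trans (hs ▸ mul_le_mul_of_nonneg_left
              (J_succ k u) s0)) zero_le_two))) e0) c0).trans_eq (by rw [hs]; ring))
    have h2 := Finset.sum_le_sum fun a (_ : a ∈ Finset.univ) => h1 a
    rw [Finset.sum_add_distrib, ← Finset.mul_sum, Finset.sum_const, nsmul_eq_mul,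
      Finset.card_univ] at h2
    have h3 : 0 ≤ ∑ a, J F k (F.D a u) x := Finset.sum_nonneg fun _ _ => J_nonneg k _
    simp only [J, h0] at h2 ⊢
    nlinarith [mul_nonneg e0 h3, mul_nonneg (mul_nonneg c0 e0) (sq_nonneg ‖u x‖)]

/-- the two weighted norms are equivalent -/
theorem N_nw (D : ℕ → ℝ) (k : ℕ) (A : ℝ) : ∃ c ≥ 0, ∀ (F : Fr I M ι) (ψ g : M → ℝ) d,
    Wd F.toPre ψ d D → (∀ x, g x ≤ ψ x) → (∀ x, ψ x ≤ g x + A) → ∀ u : M → V, Fl F.toPre u →
    ENNReal.ofReal (nw F.toPre k ψ u ^ 2) ≤ ENNReal.ofReal c * N F.toPre g univ k u ∧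
      N F.toPre g univ k u ≤ ENNReal.ofReal (c * nw F.toPre k ψ u ^ 2) := by
  obtain ⟨c, c0, h⟩ := J_exp (I := I) (M := M) (ι := ι) (V := V) D k
  obtain ⟨c', c1, h'⟩ := J_exp (I := I) (M := M) (ι := ι) (V := V) (fun k => |D k|) k
  refine ⟨c * exp (2 * A) + c', by positivity, fun F ψ g d w h1 h2 u hu => ?_⟩
  have e : ENNReal.ofReal (nw F.toPre k ψ u ^ 2) = N F.toPre 0 univ k fun x => exp (ψ x) • u x := by
    rw [N_eq (Nk89.WtP.refl _) ((w.fl hu).fl k), nw, nrm_sq]
  have p := exp_pos (2 * A)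
  constructor
  · refine e.trans_le (N_le .univ (by positivity) fun x _ => ?_)
    rw [Pi.zero_apply, mul_zero, exp_zero, one_mul]
    have : exp (2 * ψ x) ≤ exp (2 * A) * exp (2 * g x) := by
      rw [← exp_add]; exact exp_le_exp.2 (by linarith [h2 x])
    have q := J_nonneg (F := F.toPre) (x := x) k u
    refine (h _ ψ w.sm w.der u x hu.sm).trans ?_
    nlinarith [mul_le_mul_of_nonneg_left (mul_le_mul_of_nonneg_right this q) c0,
      mul_nonneg c1 (mul_nonneg (exp_pos (2 * g x)).le q)]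
  · rw [ENNReal.ofReal_mul (by positivity), e]
    refine (N_wt' .univ fun x _ => h1 x).trans (N_le .univ (by positivity) fun x _ => ?_)
    have k := h' F.toPre (-ψ) w.sm.neg (fun a => by
      rw [show F.D a (-ψ) = -F.D a ψ from funext fun x => dv_neg _ _]
      exact ⟨(w.der a).1.neg, fun k => CB_neg (w.der a).1 ((w.der a).2 k)⟩) _ x (w.fl hu).sm
    simp only [smul_smul, ← exp_add, Pi.neg_apply, neg_add_cancel, exp_zero, one_smul] at k
    rw [Pi.zero_apply, mul_zero, exp_zero, one_mul]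
    refine (mul_le_mul_of_nonneg_left k (exp_pos _).le).trans ?_
    rw [mul_left_comm, ← mul_assoc (exp _), ← exp_add, mul_neg, add_neg_cancel, exp_zero, one_mul]
    exact mul_le_mul_of_nonneg_right (le_add_of_nonneg_left (by positivity)) (J_nonneg _ _)

/-! ### the tent -/

theorem ka_bd (s : ℝ) : max 0 s - 1 ≤ ka s ∧ ka s ≤ max 0 s := by
  have h0 := ka_zero le_rfl
  rcases le_total s 0 with h | h
  · rw [ka_zero h, max_eq_left h]; norm_num
  · rw [max_eq_right h]
    refine ⟨?_, by linarith [ka_lip h]⟩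
    rcases le_total s 1 with h1 | h1
    · linarith [ka_nonneg s]
    · linarith [ka_lin le_rfl h1, ka_nonneg 1]

theorem rho_bd (u : ℝ) : |u| ≤ Gj67.rho u ∧ Gj67.rho u ≤ |u| + 1 := by
  have k : ∀ u, 0 ≤ u → u ≤ ka u + (1 - ka 1) ∧ ka u + (1 - ka 1) ≤ u + 1 := fun u h => by
    have := (ka_bd u).2
    rw [max_eq_right h] at this
    refine ⟨?_, by linarith [ka_nonneg 1]⟩
    rcases le_total u 1 with h1 | h1
    · linarith [ka_lip h1]
    · linarith [ka_lin le_rfl h1]
  rw [Gj67.rho]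
  rcases le_total u 0 with h | h
  · rw [ka_zero h, zero_add, abs_of_nonpos h]; exact k _ (neg_nonneg.2 h)
  · rw [ka_zero (neg_nonpos.2 h), add_zero, abs_of_nonneg h]; exact k _ h

theorem tent_abs (L t : ℝ) : tent L 0 0 t = max 0 (L - |t|) := by
  simp only [tent, max_def, min_def]
  cases abs_cases t <;> split_ifs <;> linarith

theorem tent_bd {Λ : ℝ} (hΛ : 0 ≤ Λ) (L t : ℝ) :
    ka (ka (L - Gj67.rho t)) ≤ tent (max L Λ) 0 0 t ∧
      tent (max L Λ) 0 0 t ≤ ka (ka (L - Gj67.rho t)) + (3 + Λ) := by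
  obtain ⟨a1, a2⟩ := ka_bd (ka (L - Gj67.rho t))
  obtain ⟨b1, b2⟩ := ka_bd (L - Gj67.rho t)
  obtain ⟨c1, c2⟩ := rho_bd t
  have := abs_nonneg t
  rw [max_eq_right (ka_nonneg _)] at a1 a2
  simp only [tent_abs, max_def] at b1 b2 ⊢
  split_ifs at b1 b2 ⊢ <;> constructor <;> linarith

theorem deriv_rho : Neck67.Sm (deriv Gj67.rho) := by
  have e : deriv Gj67.rho = (fun s => smoothTransition (s - 0)) -
      fun s => smoothTransition (-1 * s + 0) := funext fun s => by
    exact (((ka_deriv s).add ((ka_deriv (-s)).comp s (hasDerivAt_neg s))).add_const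
      (1 - ka 1)).deriv.trans (by simp [sub_eq_add_neg])
  have c : ContDiff ℝ ∞ fun s : ℝ => smoothTransition (-1 * s + 0) :=
    smoothTransition.contDiff.comp (by fun_prop)
  rw [e]
  exact ⟨(cd_st 0).sub c, fun k => ⟨_, (bd_st k 0).sub (cd_st 0) c
    ((Neck67.bd_step k).of_succ.aff (a := -1) (by simp) 0)⟩⟩

end Crest.Agent.X212.Iz83
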