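import Crest.Agent.X212.Dec35.FSt
import Crest.Agent.X212.Lad50.Wgt
import Crest.Agent.X212.Lad50.Row
import Crest.Agent.X212.Iz83.Brg

/-!
# Row 212, GW-IZ (helper83): the estimate at a nondegenerate critical point
-/

set_option autoImplicit false
set_option linter.unusedSectionVars false
noncomputable section
open scoped Manifold ContDiff Topology InnerProductSpace
open MeasureTheory Set Function Filter Real

namespace Crest.Agent.X212.Iz83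
open An An.Pre Map77 Sob92 Hm83 Ell97 Nd18 Cyf70 Dec35

section gen
variable {E : Type} [NormedAddCommGroup E] [NormedSpace ℝ E] [FiniteDimensional ℝ E]
  [MeasurableSpace E] [BorelSpace E]
  {HM : Type} [TopologicalSpace HM] {I : ModelWithCorners ℝ E HM} [I.Boundaryless]
  {M : Type} [TopologicalSpace M] [ChartedSpace HM M] [IsManifold I ∞ M] [MeasurableSpace M]
  [T2Space M] [BorelSpace M] [SecondCountableTopology M] {ι : Type} [Fintype ι]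
  {V W : Type} [NormedAddCommGroup V] [InnerProductSpace ℝ V] [FiniteDimensional ℝ V]
  [NormedAddCommGroup W] [InnerProductSpace ℝ W] [FiniteDimensional ℝ W]
  {F : Fr I M ι} {C C' : ℕ → ℝ} {A : Op M ι V W}

/-- the a priori form of `llw` -/
theorem llwA (hF : F.Tame C) (hA : A.Good F C') (hc : A.CliffL F) {c : ℝ}
    (h0 : ∀ ξ : Sec I A.p, F.nrm 0 ξ.1 ≤ c * F.nrm 0 (A.app F ξ.1)) :
    ∃ d₀ > 0, ∀ (k : ℕ) (D : ℕ → ℝ), ∃ K ≥ 0, ∀ ξ, Fl F.toPre ξ → (∀ x, A.p x (ξ x) = ξ x) →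
      ∀ ψ, Wd F.toPre ψ d₀ D →
        nw F.toPre (k + 2) ψ ξ ≤ K * nw F.toPre k ψ ((A.adj F).app F (A.app F ξ)) := by
  obtain ⟨C'', hB⟩ := good_adj hF hA
  have low : ∀ x : F.H 1 A.p, ‖F.incl 1 0 A.p x‖ ≤ |c| * ‖A.H F 0 x‖ :=
    H_le (by fun_prop) (by fun_prop) fun u => by
      rw [incl_toH zero_le_one, H_toH hA, norm_toH, norm_toH]
      exact (h0 u).trans (mul_le_mul_of_nonneg_right (le_abs_self c) (nrm_nonneg _ _))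
  obtain ⟨d, hd, h⟩ := llw F C C' hF _ _ A hA hc c h0
  refine ⟨d, hd, fun k D => (h k D).imp fun K hK => ⟨hK.1, fun ξ f p ψ w => ?_⟩⟩
  have f1 := f.opA hA
  obtain ⟨η, f', p', e, hη⟩ := hK.2 _ (f1.opA hB) (q_app hB _)
  have f2 := (f.sub f').opA hA
  obtain ⟨y, hy⟩ := ex_isp hF (f.sub f') (fun x => by rw [Pi.sub_apply, map_sub, p, p']) 1
  obtain ⟨z, hz⟩ := ex_isp hF f2 (q_app hA _) 1
  have a1 : A.H F 0 y = F.incl 1 0 A.q z := (is_op hA hy (f.sub f').sm).unique (hz.incl zero_le_one)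
  have a2 : Hs F A 0 z = 0 := (is_op hB hz f2.sm).unique (by
    rw [app_sub f.sm f'.sm, app_sub f1.sm (f'.opA hA).sm, e, sub_self]; exact Is.zero)
  have a3 := adjH hF hA y z
  rw [a2, inner_zero_right, ← a1, inner_self_eq_zero] at a3
  have a4 := low y
  rw [a3, norm_zero, mul_zero, norm_le_zero_iff] at a4
  obtain rfl := sub_eq_zero.1 (eq_of_is (a4 ▸ hy.incl zero_le_one) Is.zero
    (f.sub f').sm.continuous continuous_zero)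
  exact hη ψ w

end gen

variable {E3 : Type} [NormedAddCommGroup E3] [NormedSpace ℝ E3] [FiniteDimensional ℝ E3]
  [MeasurableSpace E3] [BorelSpace E3]
  {H3 : Type} [TopologicalSpace H3] {I3 : ModelWithCorners ℝ E3 H3} [I3.Boundaryless]
  {Y : Type} [TopologicalSpace Y] [ChartedSpace H3 Y] [IsManifold I3 ∞ Y] [T2Space Y]
  [MeasurableSpace Y] [BorelSpace Y] [SecondCountableTopology Y] [CompactSpace Y]
  {κ : Type} [Fintype κ] {lam : Type} [Fintype lam] {D : YD I3 Y κ lam} {β : YC Y κ lam}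
  {τ₀ : Pt (Y × ℝ) (Option κ) lam 0 0} {ν l d : ℝ} {K : Cz β → Y × ℝ → Ev (cy β)}
  {Kt : Cz β → Y × ℝ → (cy β).m.A} {n : Y → Cv (cy β)}

variable (hD : D.OK) (hβ : D.Adm β) (hI : Irr D β)
include hD hβ hI

theorem poiA {l : ℝ} (hl : l ≠ 0) : ∃ c, ∀ ξ : Sec (IC I3) (dO D.B D.Z (cy β) l).p,
    D.Z.nrm 0 ξ.1 ≤ c * D.Z.nrm 0 ((dO D.B D.Z (cy β) l).app D.Z ξ.1) :=
  (Hm83.poi D β hD hβ hI l hl).imp fun cp hp ξ =>
    have m : ∀ x, ξ.1 x ∈ (cy β).m.gS x := fun x => ξ.2.2.2 x ▸ Wz78.pg_mem x _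
    (hp ξ.1 ξ.2.1 ξ.2.2.1 m).trans_eq (congrArg (cp * D.Z.nrm 0 ·)
      (dO_app (G := D.G) hD.B hD.G hβ.adm l ξ.2.1 m).1.symm)

/-- the gauge part -/
theorem stG : ∃ d > 0, ∀ k Dd, ∃ C ≥ 0, ∀ ψ, Wd D.Z.toPre ψ d Dd → ∀ ξ, Fl D.Z.toPre ξ →
    (∀ x, ξ x ∈ (cy β).m.gS x) → nw D.Z.toPre (k + 1) ψ (dg D.Z (cy β) 1 ξ) ≤
      C * nw D.Z.toPre k ψ (sig D.B D.Z (cy β) 1 (dg D.Z (cy β) 1 ξ)) := by
  have b : Bs D.B ⟨D.Z, ca D.a⟩ (cy β) := bs_cy hD hβ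
  obtain ⟨C0, hF, gA⟩ := b.good_dO 1
  obtain ⟨c, hc⟩ := poiA hD hβ hI one_ne_zero
  obtain ⟨d, hd, h⟩ := llwA hF gA (b.cliff_dO 1) hc
  refine ⟨d, hd, fun k Dd => ?_⟩
  obtain ⟨K1, k1, h⟩ := h k Dd
  obtain ⟨K2, k2, h'⟩ := nw_opA hF Dd gA (k + 1)
  refine ⟨K2 * K1, by positivity, fun ψ w ξ f m => ?_⟩
  have e := (dO_app b.hB b.hG b.adm 1 f.sm m).1
  rw [sig_eq, funext (scl_dg 1 ξ), mul_assoc]
  exact e ▸ (h' ψ d w ξ f).trans (mul_le_mul_of_nonneg_left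
    (h ξ f (fun x => Wz78.pg_of_mem (m x)) ψ w) k2)

/-- the slice part -/
theorem stV (H : Lz D β τ₀ l K Kt n ν) (hd : 0 < d) :
    ∃ ε > 0, ∀ G ≥ 0, ∃ δ₀ > 0, ∀ δ, 0 < δ → δ ≤ δ₀ → ∀ k, 8 ≤ k → ∀ (Dd : ℕ → ℝ) T, QdU D β K d T →
      (∀ τ ∈ T, sz D β τ 0 = 0) → ∃ C ≥ 0, ∃ r₀ > 0, ∀ τ ∈ T,
      ∀ ψ ς k', Pf δ ε ψ ς k' → Wd D.Z.toPre (fun x => ψ x.2) δ Dd → ∀ u, Vr D β u →
        nw D.Z.toPre (k + 1) (fun x => ψ x.2) u ≤ r₀ → ∀ ρ ≥ 0,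
        (∀ V, Vr D β V → (∀ t, row D n V t = row D n u t) →
          √(∫ t, (k' t * exp (ψ t) * row D n V t) ^ 2) ≤
            ρ + G * D.Z.nrm 0 (D.Z.D none fun x => exp (ψ x.2) • V x)) →
        Fl D.Z.toPre (sz D β τ u) ∧ ∃ ξ, Fl D.Z.toPre ξ ∧ (∀ x, ξ x ∈ (cy β).m.gS x) ∧
          nw D.Z.toPre (k + 1) (fun x => ψ x.2) (u - dg D.Z (cy β) 1 ξ) ≤
            C * (nw D.Z.toPre k (fun x => ψ x.2) (sz D β τ u) + ρ +
              nw D.Z.toPre (k + 1) (fun x => ψ x.2) u ^ 2) := by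
  have b : Bs D.B ⟨D.Z, ca D.a⟩ (cy β) := bs_cy hD hβ
  obtain ⟨C0, hF, gA⟩ := b.good_dO l
  obtain ⟨_, -, gR⟩ := b.good_row l
  obtain ⟨_, -, gL⟩ := b.good_lin
  obtain ⟨cp, hp⟩ := poiA hD hβ hI H.l0
  obtain ⟨_, -, hl⟩ := llw D.Z C0 C0 hF _ _ _ gA (b.cliff_dO l) cp hp
  obtain ⟨_, -, hl⟩ := hl 0 0
  obtain ⟨d₂, d2, hb⟩ := H.bdU hd
  obtain ⟨Cp, p0, ε, hε, hk⟩ := H.pk
  refine ⟨ε, hε, fun G hG => ?_⟩
  obtain ⟨δ₀, d0, hk⟩ := hk G hG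
  refine ⟨min δ₀ d₂, by positivity, fun δ hδ hδ' k k8 Dd T hT h0 => ?_⟩
  obtain ⟨hδ0, hδ2⟩ := le_min_iff.1 hδ'
  obtain ⟨K2, k2, r2, s2, hb⟩ := hb k k8 Dd T hT
  obtain ⟨K5, k5, hf⟩ := nw_full b l Dd k
  obtain ⟨K6, k6, hi⟩ := nrm_itp (V := Cv (cy β)) hF (δ := (2 * (K5 * (2 * K2 + 1)) + 1)⁻¹)
    (by positivity) k
  obtain ⟨K7, k7, hq⟩ := nw_qd hF b.cb_qd Dd (k := k) (by omega)
  set Q := 2 * (K5 * (2 * K2 + 1)) * K6 * (Cp / δ) with hQ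
  have q0 : 0 ≤ Q := by positivity
  refine ⟨(2 * K5 + Q) * (1 + K7 + K2) + 0 * (0 + 1) * 0, by positivity, r2, s2,
    fun τ hτ ψ ς k' pf w u hu hr ρ hρ hrow => ?_⟩
  obtain ⟨fK, fT, mT, -⟩ := H.fl u hu
  have fe := hT.fl τ hτ u hu
  obtain ⟨-, -, b3⟩ := hb τ hτ ψ (w.mono hδ2) u hu
  have fs := fl_sig b l hu.fl
  obtain ⟨ξ, fξ, pξ, eξ, -⟩ := hl _ (fs.add fT) fun x => (map_add _ _ _).trans
    (congrArg₂ (· + ·) (q_app gR _ x) (Wz78.pg_of_mem (mT x)))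
  have mξ : ∀ x, ξ x ∈ (cy β).m.gS x := fun x => pξ x ▸ Wz78.pg_mem x _
  have m1 : nw D.Z.toPre k (fun x => ψ x.2) u ≤ _ := nw_mono k.le_succ u
  have n0 : 0 ≤ nw D.Z.toPre k (fun x => ψ x.2) u := nw_nonneg k u
  obtain ⟨_, -, g1⟩ := b.good_dO 1
  obtain ⟨e1, t1⟩ := dO_app b.hB b.hG b.adm 1 fξ.sm mξ
  have fd : Fl D.Z.toPre (dg D.Z (cy β) 1 ξ) := e1 ▸ fξ.opA g1
  have vd : Vr D β (dg D.Z (cy β) 1 ξ) := ⟨fd, t1⟩
  have vV : Vr D β (u - dg D.Z (cy β) 1 ξ) := ⟨hu.fl.sub fd, hu.tg.sub t1⟩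
  obtain ⟨g2, g3⟩ := H.gau ξ fξ mξ
  obtain ⟨u1, u2⟩ := H.sub _ _ hu vd
  have e2 : sig D.B D.Z (cy β) l (dg D.Z (cy β) 1 ξ) = sig D.B D.Z (cy β) l u + Kt u := by
    rw [sig_eq, funext (scl_dg l ξ), ← eξ]
    exact congrArg _ (dO_app b.hB b.hG b.adm l fξ.sm mξ).1.symm
  have e3 : sig D.B D.Z (cy β) l (u - dg D.Z (cy β) 1 ξ) = -Kt (u - dg D.Z (cy β) 1 ξ) := by
    rw [u2, g3, sub_zero]
    exact (sig_sub b l hu.fl.sm fd.sm).trans ((congrArg _ e2).trans (sub_add_cancel_left _ _))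
  obtain ⟨fq, nq⟩ := hq _ _ w u hu.fl
  have fL : Fl D.Z.toPre (lin D.B D.Z (cy β) u) := hu.fl.opA gL
  have e4 : sz D β τ u = lin D.B D.Z (cy β) u + (fun x => qd D.B (cy β) x (u x) (u x)) -
      (te τ (cy β) u - te τ (cy β) 0) := funext fun x =>
    (se_eq b.hB b.hG b.adm τ hu.fl.sm hu.tg x).trans (by
      rw [show se D.B ⟨D.Z, ca D.a⟩ τ (cy β) 0 x = 0 from congrFun (h0 τ hτ) x, zero_add]; rfl)
  have fz : Fl D.Z.toPre (sz D β τ u) := e4 ▸ (fL.add fq).sub fe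
  have e5 : lin D.B D.Z (cy β) (u - dg D.Z (cy β) 1 ξ) - K (u - dg D.Z (cy β) 1 ξ) =
      sz D β τ u - (fun x => qd D.B (cy β) x (u x) (u x)) + (te τ (cy β) u - te τ (cy β) 0 - K u) := by
    rw [u1, lin, app_sub hu.fl.sm fd.sm, ← lin, ← lin, g2, e4]
    abel
  have rw : ∀ t, row D n (u - dg D.Z (cy β) 1 ξ) t = row D n u t := fun t => by
    have c : ∀ {v : Cz β}, Sm (IC I3) v → Integrable (fun y => ⟪n y, v (y, t)⟫_ℝ) D.F.μ := fun hv =>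
      int_c D.F.toPre (H.rw.sm.continuous.inner (sm_slice_fst hv t).continuous)
    have := H.rw.g ξ fξ.sm mξ t
    simp only [Dec35.row, Pi.sub_apply, inner_sub_right] at this ⊢
    rw [integral_sub (c hu.fl.sm) (c fd.sm), this, sub_zero]
  refine ⟨fz, ξ, fξ, mξ, ?_⟩
  generalize u - dg D.Z (cy β) 1 ξ = V at vV e3 e5 rw
  obtain ⟨fK', fT', -, -⟩ := H.fl V vV
  obtain ⟨c1, c2, -⟩ := hb τ hτ ψ (w.mono hδ2) V vV
  have fL' : Fl D.Z.toPre (lin D.B D.Z (cy β) V) := vV.fl.opA gL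
  have a1 := (nw_add hF w (fz.sub fq) (fe.sub fK) k).trans
    (add_le_add ((nw_sub hF w fz fq k).trans (add_le_add le_rfl (nq.trans
      (mul_le_mul_of_nonneg_left (pow_le_pow_left₀ n0 m1 2) k7)))) (b3 hr))
  rw [← e5] at a1
  have a2 := hk δ hδ hδ0 ψ ς k' pf V vV ρ hρ (hrow V vV rw)
  have z : nw D.Z.toPre 0 (fun x => ψ x.2) (0 : Y × ℝ → (cy β).m.A) = 0 := by
    simp only [nw, Pi.zero_apply, smul_zero]; exact nrm_zero hF 0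
  rw [e3, neg_add_cancel, z, add_zero, ← le_div_iff₀' hδ, mul_div_right_comm] at a2
  have a3 := a2.trans (mul_le_mul_of_nonneg_left (add_le_add ((nw_mono k.zero_le _).trans a1) le_rfl)
    (by positivity))
  have a4 := nw_add hF w (fL'.sub fK') fK' k
  rw [sub_add_cancel] at a4
  have a5 := st_arith k5 k2 (nw_nonneg _ _) (hf _ _ w V vV.fl vV.tg)
    ((congrArg _ e3).trans_le ((nw_neg hF w fT' k).trans_le c2))
    (a4.trans (add_le_add a1 c1)) (hi _ (w.fl vV.fl))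
  have a7 := (mul_le_mul_of_nonneg_left a3
    (show 0 ≤ 2 * (K5 * (2 * K2 + 1)) * K6 by positivity)).trans_eq (mul_assoc _ _ _).symm
  exact st_fin (x := 0) k2 le_rfl k5 k7 q0 le_rfl hρ le_rfl (nw_nonneg _ _) (nw_nonneg _ _)
    (zero_mul _).ge ((a5.trans (add_le_add le_rfl a7)).trans_eq (by rw [mul_zero, zero_add]))

omit hD hβ hI in
theorem fin_arith {u v g s R z ρ c A B C P : ℝ} (hA : 0 ≤ A) (hB : 0 ≤ B) (hC : 0 ≤ C) (hP : 0 ≤ P)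
    (hu : 0 ≤ u) (hR : 0 ≤ R) (hz : 0 ≤ z + ρ) (hc : c ≤ (4 * (A * P) + 1)⁻¹)
    (hr : u ≤ (4 * ((1 + A * B) * C) + 1)⁻¹) (h1 : u ≤ v + g) (h2 : g ≤ A * s)
    (h3 : s ≤ R + c * (P * u) + B * v) (h4 : v ≤ C * (z + ρ + u ^ 2)) :
    u ≤ 2 * (A + (1 + A * B) * C) * (R + z + ρ) := by
  rw [← one_div, le_div_iff₀ (by positivity)] at hc hr
  have a1 := mul_le_mul_of_nonneg_left h3 hA
  have a2 := mul_le_mul_of_nonneg_left h4 (show 0 ≤ 1 + A * B by positivity)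
  have a3 := mul_le_mul_of_nonneg_left hr hu
  have a4 : A * (c * (P * u)) ≤ u / 4 := by
    rcases le_total c 0 with h | h
    · nlinarith [mul_nonneg (mul_nonneg hA (neg_nonneg.2 h)) (mul_nonneg hP hu)]
    · nlinarith [mul_le_mul_of_nonneg_left hc hu, mul_nonneg h hu]
  nlinarith [mul_nonneg hA hz, mul_nonneg (show 0 ≤ (1 + A * B) * C by positivity) hR, sq_nonneg u]

variable (β) in
omit hD hβ hI in
/-- the gauge row with a drift -/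
def rw (D : YD I3 Y κ lam) (f : ℝ → ℝ) (c : ℝ) (u : Cz β) : Y × ℝ → (cy β).m.A :=
  sig D.B D.Z (cy β) 1 u + c • fun x => f x.2 • (Grp76.pj _ none ∘L fa) (u x)

/-- **the estimate** -/
theorem est (H : Lz D β τ₀ l K Kt n ν) (hd : 0 < d) {k : ℕ} (k8 : 8 ≤ k) {f : ℝ → ℝ}
    (hf : Neck67.Sm f) : ∃ ε > 0, ∃ Λ ≥ 1, ∃ Dd, (∀ δ, 0 < δ → δ ≤ 1 → ∀ L, Λ ≤ L →
      ∃ ψ ς k', Wt D δ ε Λ Dd L 0 0 ψ ς k') ∧ ∃ δ₀ > 0, δ₀ ≤ 1 ∧ ∀ δ, 0 < δ → δ ≤ δ₀ → ∀ T,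
      QdU D β K d T → (∀ τ ∈ T, sz D β τ 0 = 0) → ∃ C ≥ 0, ∃ r₀ > 0, ∀ τ ∈ T, ∀ c, |c| ≤ 2 * δ →
      ∀ L ψ ς k', Wt D δ ε Λ Dd L 0 0 ψ ς k' → ∀ u, Vr D β u → (∀ x, L ≤ |x.2| → u x = 0) →
      nw D.Z.toPre (k + 1) (fun x => ψ x.2) u ≤ r₀ → ∀ s, |s| ≤ 1 →
      Fl D.Z.toPre (sz D β τ u) ∧ nw D.Z.toPre (k + 1) (fun x => ψ x.2) u ≤
        C * (nw D.Z.toPre k (fun x => ψ x.2) (rw β D f c u) +
          nw D.Z.toPre k (fun x => ψ x.2) (sz D β τ u) + exp (ψ s) * |row D n u s|) := by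
  have b : Bs D.B ⟨D.Z, ca D.a⟩ (cy β) := bs_cy hD hβ
  obtain ⟨_, hF, g1⟩ := b.good_dO 1
  obtain ⟨ε, hε, hV⟩ := stV hD hβ hI H hd
  obtain ⟨Λ, hΛ, Dd, hW⟩ := Lad50.Wg.wgt D ε hε
  obtain ⟨G, hG, hR⟩ := Lad50.Rw.rowS D β n hD H.rw.sm (Λ + 1) (by linarith)
  obtain ⟨K0, k0, hR⟩ := hR Dd
  obtain ⟨δ₀, d0, hV⟩ := hV G hG
  obtain ⟨d₁, d1, hA⟩ := stG hD hβ hI
  obtain ⟨A, a0, hA⟩ := hA k Dd
  obtain ⟨B, b0, hB⟩ := nw_sig b 1 Dd k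
  obtain ⟨S, s1, s2⟩ : D.Z.Cb fun x => f x.2 := cb_snd hf
  have c0 := cK_nonneg (ι := Option κ) k
  obtain ⟨P, hP⟩ : ∃ P, P = cK (Option κ) k * |S k| * (cK (Option κ) k *
    ‖(Grp76.pj _ none ∘L fa : Cv (cy β) →L[ℝ] (cy β).m.A)‖) := ⟨_, rfl⟩
  have p0 : 0 ≤ P := by rw [hP]; positivity
  refine ⟨ε, hε, Λ, hΛ, Dd, fun δ h1 h2 L h3 => hW δ h1 h2 L 0 0 h3 le_rfl,
    min 1 (min δ₀ (min d₁ ((4 * (A * P) + 1)⁻¹ / 2))), by positivity, min_le_left _ _,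
    fun δ h1 h2 T hT h0 => ?_⟩
  simp only [le_min_iff] at h2
  obtain ⟨C, c1, r, r0, hV⟩ := hV δ h1 h2.2.1 k k8 Dd T hT h0
  refine ⟨2 * (A + (1 + A * B) * C) * (1 + K0), by positivity,
    min r (4 * ((1 + A * B) * C) + 1)⁻¹, by positivity,
    fun τ hτ c hc L ψ ς k' w u hu h3 hr s hs => ?_⟩
  have x0 : 0 ≤ exp (ψ s) * |row D n u s| := by positivity
  obtain ⟨fz, ξ, fξ, mξ, hξ⟩ := hV τ hτ ψ ς k' w.pf w.wd u hu (hr.trans (min_le_left _ _))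
    (K0 * (exp (ψ s) * |row D n u s|)) (by positivity) fun V hv e => by
      have := hR ψ k' δ s 0 u V w.wd w.pf.sk.cd.continuous w.pf.k1 hu.fl hv.fl le_rfl fun t ht => by
        have z : L ≤ |t| → |row D n V t| ≤ 0 * sl D u t ^ 2 := fun h => by
          rw [e]; simp [Dec35.row, fun y => h3 (y, t) h]
        rcases w.sup t ht with h | h | h
        · exact .inr (z (by linarith [neg_le_abs t]))
        · exact .inl ((abs_sub _ _).trans (add_le_add (by simpa using h) hs))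
        · exact .inr (z (by linarith [le_abs_self t]))
      rwa [zero_mul, add_zero, e] at this
  obtain ⟨e1, -⟩ := dO_app b.hB b.hG b.adm 1 fξ.sm mξ
  have fd : Fl D.Z.toPre (dg D.Z (cy β) 1 ξ) := e1 ▸ fξ.opA g1
  have fV := hu.fl.sub fd
  have f1 := hu.fl.clm (Grp76.pj _ none ∘L fa : Cv (cy β) →L[ℝ] (cy β).m.A)
  have f2 := (f1.smul ⟨_, s1, s2⟩).csmul c
  have f3 := (fl_sig b 1 hu.fl).add f2
  have a1 := nw_add hF w.wd fV fd (k + 1)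
  rw [sub_add_cancel] at a1
  have e2 := sig_sub b 1 hu.fl.sm fV.sm
  rw [sub_sub_cancel, ← add_sub_cancel_right (sig _ _ _ 1 u)] at e2
  have a2 := (nw_sub hF w.wd (f3.sub f2) (fl_sig b 1 fV) k).trans (add_le_add
    ((nw_sub hF w.wd f3 f2 k).trans (add_le_add le_rfl ((nw_csmul hF w.wd c (f1.smul ⟨_, s1, s2⟩)
      k).trans_le (mul_le_mul_of_nonneg_left ((nw_smul w.wd s1 (s2 k) f1).trans
        (mul_le_mul_of_nonneg_left ((nw_clm w.wd _ hu.fl k).trans (mul_le_mul_of_nonneg_left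
          (nw_mono k.le_succ u) (by positivity))) (by positivity))) (abs_nonneg c)))))
    (hB _ _ w.wd _ fV))
  rw [← mul_assoc (_ * _), ← hP] at a2
  have n1 := nw_nonneg (F := D.Z) (ψ := fun x => ψ x.2) k (rw β D f c u)
  have n2 := nw_nonneg (F := D.Z) (ψ := fun x => ψ x.2) k (sz D β τ u)
  refine ⟨fz, (fin_arith a0 b0 c1 p0 (nw_nonneg _ _) n1 (by positivity) (by linarith [h2.2.2.2])
    (hr.trans (min_le_right _ _)) a1 (hA _ (w.wd.mono h2.2.2.1) ξ fξ mξ)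
    ((congrArg _ e2).trans_le a2) hξ).trans ?_⟩
  rw [mul_assoc _ (1 + K0)]
  exact mul_le_mul_of_nonneg_left (by nlinarith [mul_nonneg k0 n1, mul_nonneg k0 n2]) (by positivity)

end Crest.Agent.X212.Iz83
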